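import Vale.Agent.Lib.P213G.FromOne

/-!
# P213, second form: every many-sorted omega-category comes from a one-sorted one
-/

open CategoryTheory

namespace Vale.Agent.P213G

open Vale.Agent.P213 (OmegaCat)

variable {D : GCat}

/-- source or target -/
def dd (ε : Bool) {j k : ℕ} (h : j ≤ k) (x : D.C k) : D.C j := if ε then D.t h x else D.s h x

@[simp] theorem dd_true {j k : ℕ} (h : j ≤ k) (x : D.C k) : dd true h x = D.t h x := rfl

@[simp] theorem dd_false {j k : ℕ} (h : j ≤ k) (x : D.C k) : dd false h x = D.s h x := rfl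

theorem dd_dd (η ε : Bool) {i j k : ℕ} (h : i < j) (h' : j ≤ k) (x : D.C k) :
    dd η h.le (dd ε h' x) = dd η (h.le.trans h') x := by
  cases η <;> cases ε
  · exact D.laws.s_s h.le h' x
  · exact D.laws.s_t h h' x
  · exact D.laws.t_s h h' x
  · exact D.laws.t_t h.le h' x

theorem dd_one (ε : Bool) {j k : ℕ} (h : j ≤ k) (x : D.C j) : dd ε h (D.one h x) = x := by
  cases ε
  · exact D.laws.s_one _ _
  · exact D.laws.t_one _ _

theorem dd_self (ε : Bool) {k : ℕ} (x : D.C k) : dd ε le_rfl x = x := by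
  cases ε
  · exact D.laws.s_self _
  · exact D.laws.t_self _

theorem s_one_low {i j k : ℕ} (h : i ≤ j) (h' : j ≤ k) (x : D.C j) :
    D.s (h.trans h') (D.one h' x) = D.s h x := by
  rw [← D.laws.s_s h h', D.laws.s_one]

theorem s_one_high {i j k : ℕ} (h : i ≤ j) (h' : j ≤ k) (x : D.C i) :
    D.s h' (D.one (h.trans h') x) = D.one h x := by
  rw [← D.laws.one_one h h', D.laws.s_one]

/-- a cell of the one-sorted form: a compatible sequence of sources, eventually identities -/
@[ext]
structure PCell (D : GCat) where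
  x : ∀ k, D.C k
  src : ∀ {j k : ℕ} (h : j ≤ k), D.s h (x k) = x j
  fin : ∃ n, ∀ {k : ℕ} (h : n ≤ k), x k = D.one h (x n)

namespace PCell

theorem mk_aux {k l : ℕ} (c : D.C k) (h : k ≤ l) :
    (if h : l ≤ k then D.s h c else D.one (le_of_not_ge h) c) = D.one h c := by
  split_ifs with h1
  · obtain rfl := le_antisymm h h1
    rw [D.laws.s_self, D.laws.one_self]
  · rfl

/-- the cell given by a `k`-cell -/
def mk' (k : ℕ) (c : D.C k) : PCell D where
  x l := if h : l ≤ k then D.s h c else D.one (le_of_not_ge h) c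
  src {i j} h := by
    rcases le_total j k with h1 | h1
    · rw [dif_pos h1, dif_pos (h.trans h1), D.laws.s_s]
    · rw [mk_aux c h1]
      rcases le_total i k with h2 | h2
      · rw [dif_pos h2]
        exact s_one_low h2 h1 c
      · rw [mk_aux c h2]
        exact s_one_high h2 h c
  fin := ⟨k, fun {l} h => by
    rw [mk_aux c h, dif_pos le_rfl, D.laws.s_self]⟩

theorem mk_low {k l : ℕ} (c : D.C k) (h : l ≤ k) : (mk' k c).x l = D.s h c := dif_pos h

theorem mk_high {k l : ℕ} (c : D.C k) (h : k ≤ l) : (mk' k c).x l = D.one h c := mk_aux c h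

theorem mk_self {k : ℕ} (c : D.C k) : (mk' k c).x k = c := by
  rw [mk_high c le_rfl, D.laws.one_self]

theorem mk_inj {k : ℕ} {c c' : D.C k} (h : mk' k c = mk' k c') : c = c' := by
  rw [← mk_self c, ← mk_self c', h]

theorem mk_one {k l : ℕ} (h : k ≤ l) (c : D.C k) : mk' l (D.one h c) = mk' k c := by
  ext i
  rcases le_total i l with h1 | h1
  · rw [mk_low _ h1]
    rcases le_total i k with h2 | h2
    · rw [mk_low _ h2]
      exact s_one_low h2 h c
    · rw [mk_high _ h2]
      exact s_one_high h2 h1 c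
  · rw [mk_high _ h1, mk_high _ (h.trans h1), D.laws.one_one]

theorem exists_lvl (x : PCell D) : ∃ n, ∀ N, n ≤ N → mk' N (x.x N) = x := by
  obtain ⟨n, hn⟩ := x.fin
  refine ⟨n, fun N hN => ?_⟩
  have h1 : mk' n (x.x n) = x := by
    ext l
    rcases le_total l n with h2 | h2
    · rw [mk_low _ h2, x.src]
    · rw [mk_high _ h2]
      exact (hn h2).symm
  have h2 : x.x N = D.one hN (x.x n) := hn hN
  rw [h2, mk_one, h1]

theorem rep1 (m : ℕ) (x : PCell D) : ∃ N, m ≤ N ∧ ∃ a : D.C N, x = mk' N a := by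
  obtain ⟨n, hn⟩ := x.exists_lvl
  exact ⟨max n m, le_max_right _ _, _, (hn _ (le_max_left _ _)).symm⟩

theorem rep2 (m : ℕ) (x y : PCell D) : ∃ N, m ≤ N ∧ ∃ a b : D.C N, x = mk' N a ∧ y = mk' N b := by
  obtain ⟨n, hn⟩ := x.exists_lvl
  obtain ⟨n', hn'⟩ := y.exists_lvl
  exact ⟨max (max n n') m, le_max_right _ _, _, _,
    (hn _ ((le_max_left _ _).trans (le_max_left _ _))).symm,
    (hn' _ ((le_max_right _ _).trans (le_max_left _ _))).symm⟩

theorem rep3 (m : ℕ) (x y z : PCell D) : ∃ N, m ≤ N ∧ ∃ a b c : D.C N,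
    x = mk' N a ∧ y = mk' N b ∧ z = mk' N c := by
  obtain ⟨n, hn⟩ := x.exists_lvl
  obtain ⟨n', hn'⟩ := y.exists_lvl
  obtain ⟨n'', hn''⟩ := z.exists_lvl
  refine ⟨max (max n (max n' n'')) m, le_max_right _ _, _, _, _, (hn _ ?_).symm,
    (hn' _ ?_).symm, (hn'' _ ?_).symm⟩ <;> omega

theorem rep4 (m : ℕ) (x y z w : PCell D) : ∃ N, m ≤ N ∧ ∃ a b c d : D.C N,
    x = mk' N a ∧ y = mk' N b ∧ z = mk' N c ∧ w = mk' N d := by
  obtain ⟨n, hn⟩ := x.exists_lvl
  obtain ⟨n', hn'⟩ := y.exists_lvl
  obtain ⟨n'', hn''⟩ := z.exists_lvl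
  obtain ⟨n3, hn3⟩ := w.exists_lvl
  refine ⟨max (max n (max n' (max n'' n3))) m, le_max_right _ _, _, _, _, _, (hn _ ?_).symm,
    (hn' _ ?_).symm, (hn'' _ ?_).symm, (hn3 _ ?_).symm⟩ <;> omega

/-- source and target of a cell -/
def face (k : ℕ) (ε : Bool) (x : PCell D) : PCell D := mk' k (dd ε (Nat.le_succ k) (x.x (k + 1)))

theorem face_mk {k N : ℕ} (ε : Bool) (h : k ≤ N) (c : D.C N) :
    face k ε (mk' N c) = mk' k (dd ε h c) := by
  unfold face
  congr 1
  rcases h.lt_or_eq with h1 | rfl
  · rw [mk_low _ h1]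
    exact dd_dd ε false (Nat.lt_succ_self k) h1 c
  · rw [mk_high _ (Nat.le_succ k), dd_one, dd_self]

theorem face_mk_high {k N : ℕ} (ε : Bool) (h : N ≤ k) (c : D.C N) :
    face k ε (mk' N c) = mk' N c := by
  rw [← mk_one h, face_mk ε le_rfl, dd_self]

theorem face_eq_iff {k N : ℕ} (h : k ≤ N) (a b : D.C N) :
    face k true (mk' N a) = face k false (mk' N b) ↔ D.t h a = D.s h b := by
  rw [face_mk _ h, face_mk _ h]
  exact ⟨fun h1 => mk_inj h1, fun h1 => congrArg _ h1⟩

theorem comp_aux {k M N : ℕ} (hk : k < M) (hk' : k < N) (h : M ≤ N) {a b : D.C M} {a' b' : D.C N}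
    (ha : mk' M a = mk' N a') (hb : mk' M b = mk' N b') (p : D.t hk.le a = D.s hk.le b)
    (p' : D.t hk'.le a' = D.s hk'.le b') :
    mk' M (D.comp hk a b p) = mk' N (D.comp hk' a' b' p') := by
  have ha' : a' = D.one h a := by
    rw [← mk_one h] at ha
    exact (mk_inj ha).symm
  have hb' : b' = D.one h b := by
    rw [← mk_one h] at hb
    exact (mk_inj hb).symm
  subst ha' hb'
  rw [← mk_one h]
  congr 1
  exact D.laws.one_comp hk h a b p p'

theorem cmp_exists (k : ℕ) (x y : PCell D) (h : face k true x = face k false y) :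
    ∃ z : PCell D, ∃ (N : ℕ) (hk : k < N) (a b : D.C N) (p : D.t hk.le a = D.s hk.le b),
      mk' N a = x ∧ mk' N b = y ∧ mk' N (D.comp hk a b p) = z := by
  obtain ⟨N, hN, a, b, rfl, rfl⟩ := rep2 (k + 1) x y
  have hk : k < N := hN
  have p := (face_eq_iff hk.le a b).1 h
  exact ⟨_, N, hk, a, b, p, rfl, rfl, rfl⟩

open Classical in
/-- composition of cells -/
noncomputable def cmp (k : ℕ) (x y : PCell D) : PCell D :=
  if h : face k true x = face k false y then (cmp_exists k x y h).choose else x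

theorem cmp_mk {k N : ℕ} (h : k < N) (a b : D.C N) (p : D.t h.le a = D.s h.le b) :
    cmp k (mk' N a) (mk' N b) = mk' N (D.comp h a b p) := by
  have h0 := (face_eq_iff h.le a b).2 p
  unfold cmp
  rw [dif_pos h0]
  obtain ⟨M, hk, a', b', q, h1, h2, h3⟩ := (cmp_exists k (mk' N a) (mk' N b) h0).choose_spec
  rw [← h3]
  rcases le_total N M with h4 | h4
  · exact (comp_aux h hk h4 h1.symm h2.symm p q).symm
  · exact comp_aux hk h h4 h1 h2 q p

end PCell

open PCell

/-- the one-sorted form of a many-sorted omega-category -/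
noncomputable def oneObj (D : GCat) : OmegaCat where
  Cell := PCell D
  bd := PCell.face
  comp := PCell.cmp
  bd_bd_lt {j k} η ε x h := by
    obtain ⟨N, hN, a, rfl⟩ := rep1 k x
    rw [face_mk ε hN, face_mk η h.le, face_mk η (h.le.trans hN), dd_dd η ε h hN]
  bd_bd_ge {j k} η ε x h := face_mk_high _ h _
  bd_source_comp {k x y} h := by
    obtain ⟨N, hN, a, b, rfl, rfl⟩ := rep2 (k + 1) x y
    have hk : k < N := hN
    have p := (face_eq_iff hk.le a b).1 h
    rw [cmp_mk hk a b p, face_mk _ hk.le, face_mk _ hk.le, dd_false, dd_false, D.laws.s_comp]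
  bd_target_comp {k x y} h := by
    obtain ⟨N, hN, a, b, rfl, rfl⟩ := rep2 (k + 1) x y
    have hk : k < N := hN
    have p := (face_eq_iff hk.le a b).1 h
    rw [cmp_mk hk a b p, face_mk _ hk.le, face_mk _ hk.le, dd_true, dd_true, D.laws.t_comp]
  bd_comp {j k} ε x y hkj h := by
    obtain ⟨N, hN, a, b, rfl, rfl⟩ := rep2 j x y
    have hk : k < N := hkj.trans_le hN
    have p := (face_eq_iff hk.le a b).1 h
    have q : D.t hkj.le (dd ε hN a) = D.s hkj.le (dd ε hN b) := by
      have h1 := dd_dd true ε hkj hN a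
      have h2 := dd_dd false ε hkj hN b
      rw [dd_true, dd_true] at h1
      rw [dd_false, dd_false] at h2
      rw [h1, h2, p]
    rw [cmp_mk hk a b p, face_mk _ hN, face_mk _ hN, face_mk _ hN, cmp_mk hkj _ _ q]
    congr 1
    cases ε
    · exact D.laws.s_comp_high hkj hN a b p q
    · exact D.laws.t_comp_high hkj hN a b p q
  comp_target k x := by
    obtain ⟨N, hN, a, rfl⟩ := rep1 (k + 1) x
    have hk : k < N := hN
    have p : D.t hk.le a = D.s hk.le (D.one hk.le (D.t hk.le a)) := (D.laws.s_one _ _).symm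
    rw [face_mk _ hk.le, dd_true, ← mk_one hk.le, cmp_mk hk _ _ p, D.laws.comp_id]
  source_comp k x := by
    obtain ⟨N, hN, a, rfl⟩ := rep1 (k + 1) x
    have hk : k < N := hN
    have p : D.t hk.le (D.one hk.le (D.s hk.le a)) = D.s hk.le a := D.laws.t_one _ _
    rw [face_mk _ hk.le, dd_false, ← mk_one hk.le, cmp_mk hk _ _ p, D.laws.id_comp]
  comp_assoc {k x y z} h h' := by
    obtain ⟨N, hN, a, b, c, rfl, rfl, rfl⟩ := rep3 (k + 1) x y z
    have hk : k < N := hN
    have p := (face_eq_iff hk.le a b).1 h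
    have q := (face_eq_iff hk.le b c).1 h'
    have p' : D.t hk.le (D.comp hk a b p) = D.s hk.le c := by rw [D.laws.t_comp, q]
    have q' : D.t hk.le a = D.s hk.le (D.comp hk b c q) := by rw [D.laws.s_comp, p]
    rw [cmp_mk hk a b p, cmp_mk hk _ _ p', cmp_mk hk b c q, cmp_mk hk _ _ q', D.laws.assoc]
  interchange {j k x y x' y'} hjk h1 h2 h3 h4 := by
    obtain ⟨N, hN, a, b, a', b', rfl, rfl, rfl, rfl⟩ := rep4 (k + 1) x y x' y'
    have hk : k < N := hN
    have hj : j < N := hjk.trans hk
    have p := (face_eq_iff hk.le a b).1 h1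
    have p' := (face_eq_iff hk.le a' b').1 h2
    have q := (face_eq_iff hj.le a a').1 h3
    have q' := (face_eq_iff hj.le b b').1 h4
    have r : D.t hj.le (D.comp hk a b p) = D.s hj.le (D.comp hk a' b' p') := by
      rw [← D.laws.t_t hjk.le hk.le, ← D.laws.s_s hjk.le hk.le, D.laws.t_comp, D.laws.s_comp, D.laws.t_t, D.laws.s_s, q']
      rw [← D.laws.s_s hjk.le hk.le, ← D.laws.s_s hjk.le hk.le, ← p', D.laws.s_t hjk hk.le, D.laws.s_s]
    have r' : D.t hk.le (D.comp hj a a' q) = D.s hk.le (D.comp hj b b' q') := by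
      have q1 : D.t hjk.le (D.t hk.le a) = D.s hjk.le (D.t hk.le a') := by
        rw [D.laws.t_t, D.laws.s_t hjk, q]
      have q2 : D.t hjk.le (D.s hk.le b) = D.s hjk.le (D.s hk.le b') := by
        rw [D.laws.t_s hjk, D.laws.s_s, q']
      rw [D.laws.t_comp_high hjk hk.le a a' q q1, D.laws.s_comp_high hjk hk.le b b' q' q2]
      congr 1
    rw [cmp_mk hk a b p, cmp_mk hk a' b' p', cmp_mk hj _ _ r, cmp_mk hj a a' q,
      cmp_mk hj b b' q', cmp_mk hk _ _ r', D.laws.interchange hjk hk a b a' b' p p' q q' r r']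
  finite_dim x := by
    obtain ⟨N, hN, a, rfl⟩ := rep1 0 x
    exact ⟨N, face_mk_high _ le_rfl a⟩

/-- the isomorphism of the many-sorted form of `oneObj D` with `D` -/
noncomputable def globOne (D : GCat) : glob.obj (oneObj D) ≅ D where
  hom := ⟨fun k x => x.1.x k,
    fun {j k} h x => by
      obtain ⟨x, hx⟩ := x
      change (PCell.face j false x).x j = _
      obtain ⟨N, hN, a, rfl⟩ := rep1 k x
      rw [face_mk _ (h.trans hN), mk_self, mk_low _ hN, dd_false, D.laws.s_s],
    fun {j k} h x => by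
      obtain ⟨x, hx⟩ := x
      change (PCell.face j true x).x j = D.t h (x.x k)
      have hx' : mk' k (x.x k) = x := by
        have h1 : PCell.face k false x = x := hx
        rw [← h1]
        unfold PCell.face
        rw [mk_self]
      rw [← hx', face_mk _ h, mk_self, mk_self, dd_true],
    fun {j k} h x => by
      obtain ⟨x, hx⟩ := x
      change x.x k = D.one h (x.x j)
      have hx' : mk' j (x.x j) = x := by
        have h1 : PCell.face j false x = x := hx
        rw [← h1]
        unfold PCell.face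
        rw [mk_self]
      rw [← hx', mk_high _ h, mk_self],
    fun {j k} h x y p q => by
      obtain ⟨x, hx⟩ := x
      obtain ⟨y, hy⟩ := y
      change (PCell.cmp j x y).x k = D.comp h (x.x k) (y.x k) q
      have hx' : mk' k (x.x k) = x := by
        have h1 : PCell.face k false x = x := hx
        rw [← h1]
        unfold PCell.face
        rw [mk_self]
      have hy' : mk' k (y.x k) = y := by
        have h1 : PCell.face k false y = y := hy
        rw [← h1]
        unfold PCell.face
        rw [mk_self]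
      have h2 := cmp_mk h (x.x k) (y.x k) q
      rw [hx', hy'] at h2
      rw [h2, mk_self]⟩
  inv := ⟨fun k c => ⟨mk' k c, face_mk_high _ le_rfl c⟩,
    fun {j k} h x => Subtype.ext (by
      change mk' j (D.s h x) = PCell.face j false (mk' k x)
      rw [face_mk _ h, dd_false]),
    fun {j k} h x => Subtype.ext (by
      change mk' j (D.t h x) = PCell.face j true (mk' k x)
      rw [face_mk _ h, dd_true]),
    fun {j k} h x => Subtype.ext (mk_one h x),
    fun {j k} h x y p q => Subtype.ext (by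
      change mk' k (D.comp h x y p) = PCell.cmp j (mk' k x) (mk' k y)
      rw [cmp_mk h x y p])⟩
  hom_inv_id := by
    apply GCat.hom_ext
    intro k x
    obtain ⟨x, hx⟩ := x
    apply Subtype.ext
    change mk' k (x.x k) = x
    have h1 : PCell.face k false x = x := hx
    rw [← h1]
    unfold PCell.face
    rw [mk_self]
  inv_hom_id := by
    apply GCat.hom_ext
    intro k x
    exact mk_self x

instance : glob.EssSurj where
  mem_essImage D := ⟨oneObj D, ⟨globOne D⟩⟩

instance : glob.IsEquivalence where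

end Vale.Agent.P213G
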