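import Vale.Agent.Lib.P213G.Defs
import Vale.Agent.Lib.P213G.ToOne

/-!
# P213, second form: comparison of the orientals and of the Street nerves
-/

open CategoryTheory

namespace Vale.Agent.P213G

open Vale.Agent.P213 (OmegaCat Table simplexCpx simplexCpxMap)

theorem isCell_table {m k : ℕ} (t : Table (simplexCpx m)) (h : Table.face k false t = t) :
    IsCell m k t.x where
  aug := t.aug
  bdry := t.bd
  top σ hσ := by
    have h1 : (Table.face k false t).x true σ = t.x true σ := by rw [h]
    have h2 : (Table.face k false t).x true σ = t.x false σ := by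
      have h3 : ¬ σ.dim < k := by omega
      change (if σ.dim < k then t.x true σ else if σ.dim = k then t.x false σ else 0) = _
      rw [if_neg h3, if_pos hσ]
    rw [← h1, h2]
  above ε σ hσ := by
    have h1 : (Table.face k false t).x ε σ = t.x ε σ := by rw [h]
    have h2 : (Table.face k false t).x ε σ = 0 := by
      have h3 : ¬ σ.dim < k := by omega
      have h4 : ¬ σ.dim = k := by omega
      change (if σ.dim < k then t.x ε σ else if σ.dim = k then t.x false σ else 0) = _
      rw [if_neg h3, if_neg h4]
    rw [← h1, h2]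

/-- the two forms of the oriental agree -/
noncomputable def orIso (m : ℕ) : oriental m ≅ glob.obj (Vale.Agent.P213.nu (simplexCpx m)) where
  hom := ⟨fun _ x => ⟨toTable x.2, Table.ext (cut_self x.2 false)⟩,
    fun _ _ => rfl, fun _ _ => rfl, fun _ _ => rfl,
    fun _ x y p _ => Subtype.ext (Table.ext
      (table_glue x.2 y.2 (congrArg Subtype.val p)).symm)⟩
  inv := ⟨fun _ t => ⟨t.1.x, isCell_table t.1 t.2⟩,
    fun _ _ => rfl, fun _ _ => rfl, fun _ _ => rfl,
    fun _ x y p _ => Subtype.ext (table_glue (isCell_table x.1 x.2) (isCell_table y.1 y.2)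
      (congrArg (fun z => z.1.x) p))⟩
  hom_inv_id := rfl
  inv_hom_id := rfl

/-- naturality -/
noncomputable def orNatIso : orientals ≅ Vale.Agent.P213.orientalFunctor ⋙ glob :=
  NatIso.ofComponents (fun m => orIso m.len) (fun {m n} φ => by
    apply GCat.hom_ext
    intro k x
    apply Subtype.ext
    apply Table.ext
    exact push_eq_map φ.toOrderHom x.2)

theorem nerve_aux {X : OmegaCat} {m n : SimplexCategory} (φ : n ⟶ m)
    (a : Vale.Agent.P213.orientalFunctor.obj m ⟶ X) :
    orNatIso.hom.app n ≫ glob.map (Vale.Agent.P213.orientalFunctor.map φ ≫ a) =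
      orientals.map φ ≫ (orNatIso.hom.app m ≫ glob.map a) := by
  rw [← Category.assoc (orientals.map φ), orNatIso.hom.naturality, Category.assoc,
    Functor.comp_map, Functor.map_comp]

theorem nerve_aux' {X Y : OmegaCat} {m : SimplexCategory} (f : X ⟶ Y)
    (a : Vale.Agent.P213.orientalFunctor.obj m ⟶ X) :
    orNatIso.hom.app m ≫ glob.map (a ≫ f) = (orNatIso.hom.app m ≫ glob.map a) ≫ glob.map f := by
  rw [Functor.map_comp, Category.assoc]

/-- maps out of the orientals -/
noncomputable def orHomEquiv (m : SimplexCategory) (X : OmegaCat) :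
    (Vale.Agent.P213.orientalFunctor.obj m ⟶ X) ≃ (orientals.obj m ⟶ glob.obj X) where
  toFun a := orNatIso.hom.app m ≫ glob.map a
  invFun b := glob.preimage (orNatIso.inv.app m ≫ b)
  left_inv a := by
    apply glob.map_injective
    rw [glob.map_preimage]
    exact Iso.inv_hom_id_app_assoc orNatIso _ _
  right_inv b := by
    dsimp only
    rw [glob.map_preimage]
    exact Iso.hom_inv_id_app_assoc orNatIso _ _

/-- the two Street nerves agree, at an object -/
noncomputable def nerveIsoObj (X : OmegaCat) :
    Vale.Agent.P213.streetNerveOmega.obj X ≅ nerveOmega.obj (glob.obj X) :=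
  NatIso.ofComponents (fun m => Equiv.toIso (orHomEquiv m.unop X))
    (fun {m n} φ => by
      ext a
      exact nerve_aux φ.unop a)

/-- the two Street nerves agree -/
noncomputable def nerveIso : Vale.Agent.P213.streetNerveOmega ≅ glob ⋙ nerveOmega :=
  NatIso.ofComponents nerveIsoObj (fun {X Y} f => by
    ext m a
    exact nerve_aux' f a)

theorem isNCat_glob {n : ℕ∞} (X : OmegaCat) :
    GCat.IsNCat n (glob.obj X) ↔ OmegaCat.IsNCat n X := by
  constructor
  · intro h k hk x
    obtain ⟨N, hN⟩ := X.finite_dim x
    have key : ∀ d : ℕ, ∀ x : X.Cell, X.bd (k + d) false x = x → X.bd k false x = x := by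
      intro d
      induction d with
      | zero => exact fun x hx => hx
      | succ d ih =>
        intro x hx
        obtain ⟨y, hy⟩ := h (k + d) (hk.trans (by exact_mod_cast Nat.le_add_right k d)) ⟨x, hx⟩
        have h1 : y.1 = x := congrArg Subtype.val hy
        have h2 := y.2
        rw [h1] at h2
        exact ih x h2
    rcases le_total k N with h1 | h1
    · obtain ⟨d, rfl⟩ := Nat.exists_eq_add_of_le h1
      exact key d x hN
    · exact one_high h1 false hN
  · intro h k hk x
    exact ⟨⟨x.1, h k hk x.1⟩, rfl⟩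

instance (n : ℕ∞) : (GCat.IsNCat n).IsClosedUnderIsomorphisms where
  of_iso {X Y} e h k hk x := by
    obtain ⟨y, hy⟩ := h k hk (e.inv.f (k + 1) x)
    refine ⟨e.hom.f k y, ?_⟩
    rw [← e.hom.isFunctor.map_one, hy]
    have h1 : GCat.Hom.f (e.inv ≫ e.hom) (k + 1) x = x := by rw [e.inv_hom_id]; rfl
    exact h1

/-- the functor on `n`-categories -/
noncomputable def globN (n : ℕ∞) : Vale.Agent.P213.NCat n ⥤ NCat n :=
  (GCat.IsNCat n).lift ((OmegaCat.IsNCat n).ι ⋙ glob)
    (fun X => (isNCat_glob X.obj).2 X.property)

instance (n : ℕ∞) : (globN n).Faithful := by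
  unfold globN
  infer_instance

instance (n : ℕ∞) : (globN n).Full := by
  unfold globN
  infer_instance

instance (n : ℕ∞) : (globN n).EssSurj where
  mem_essImage D := by
    have h1 : OmegaCat.IsNCat n (oneObj D.obj) := by
      rw [← isNCat_glob]
      exact (GCat.IsNCat n).prop_of_iso (globOne D.obj).symm D.property
    refine ⟨⟨oneObj D.obj, h1⟩, ⟨?_⟩⟩
    exact (GCat.IsNCat n).isoMk (globOne D.obj)

instance (n : ℕ∞) : (globN n).IsEquivalence where

/-- the two Street nerves of `n`-categories agree -/
noncomputable def nerveIsoN (n : ℕ∞) : Vale.Agent.P213.streetNerve n ≅ globN n ⋙ nerve n :=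
  Functor.isoWhiskerLeft (OmegaCat.IsNCat n).ι nerveIso

end Vale.Agent.P213G
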