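import Vale.Agent.Lib.P213G.OrDefs
import Vale.Agent.Lib.P213.Defs

/-!
# P213, second form: lemmas on the cells of the orientals
-/

namespace Vale.Agent.P213G

open Vale.Agent.P213 (Table simplexCpx simplexCpxMap simplexMat simplexMat_id simplexMat_comp)

variable {m n k j i : ℕ}

/-- the table of a cell -/
def toTable {x : Bool → Face m → ℕ} (hx : IsCell m k x) : Table (simplexCpx m) :=
  ⟨x, hx.aug, hx.bdry⟩

theorem isCell_cut {x : Bool → Face m → ℕ} (h : j ≤ k) (hx : IsCell m k x) (ε : Bool) :
    IsCell m j (cut j ε x) where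
  aug := (Table.face j ε (toTable hx)).aug
  bdry := (Table.face j ε (toTable hx)).bd
  top σ hσ := by
    have h1 : ¬ σ.dim < j := by omega
    simp only [cut, if_neg h1, if_pos hσ]
  above δ σ hσ := by
    unfold cut
    rw [if_neg (by omega), if_neg (by omega)]

theorem isCell_one {x : Bool → Face m → ℕ} (h : j ≤ k) (hx : IsCell m j x) : IsCell m k x where
  aug := hx.aug
  bdry := hx.bdry
  top σ hσ := by
    rcases h.lt_or_eq with h1 | rfl
    · rw [hx.above _ σ (by omega), hx.above _ σ (by omega)]
    · exact hx.top σ hσ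
  above δ σ hσ := hx.above δ σ (by omega)

theorem table_glue {x y : Bool → Face m → ℕ} (hx : IsCell m k x) (hy : IsCell m k y)
    (p : cut j true x = cut j false y) :
    (Table.comp j (toTable hx) (toTable hy)).x = glue j x y := by
  have p' : Table.face j true (toTable hx) = Table.face j false (toTable hy) := Table.ext p
  funext δ σ
  rw [Table.comp_x p']
  rfl

theorem isCell_glue {x y : Bool → Face m → ℕ} (h : j < k) (hx : IsCell m k x)
    (hy : IsCell m k y) (p : cut j true x = cut j false y) : IsCell m k (glue j x y) where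
  aug := by
    rw [← table_glue hx hy p]
    exact (Table.comp j (toTable hx) (toTable hy)).aug
  bdry := by
    rw [← table_glue hx hy p]
    exact (Table.comp j (toTable hx) (toTable hy)).bd
  top σ hσ := by
    unfold glue
    rw [if_neg (by omega), if_neg (by omega), if_neg (by omega), if_neg (by omega),
      hx.top σ hσ, hy.top σ hσ]
  above δ σ hσ := by
    unfold glue
    rw [if_neg (by omega), if_neg (by omega), hx.above δ σ hσ, hy.above δ σ hσ]

theorem push_eq_map (φ : Fin (m + 1) →o Fin (n + 1)) {x : Bool → Face m → ℕ}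
    (hx : IsCell m k x) :
    push φ x = (Table.map (K := simplexCpx m) (L := simplexCpx n) (simplexCpxMap φ)
      (toTable hx)).x := by
  funext δ τ
  refine Eq.trans ?_ (Table.map_x (K := simplexCpx m) (L := simplexCpx n) (simplexCpxMap φ)
    (toTable hx) δ τ).symm
  unfold push
  refine Finset.sum_congr rfl fun σ _ => ?_
  change _ = x δ σ * simplexMat φ σ τ
  unfold simplexMat
  split_ifs
  · rw [mul_one]
  · rw [mul_zero]

theorem isCell_push (φ : Fin (m + 1) →o Fin (n + 1)) {x : Bool → Face m → ℕ}
    (hx : IsCell m k x) : IsCell n k (push φ x) where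
  aug := by
    rw [push_eq_map φ hx]
    exact (Table.map (K := simplexCpx m) (L := simplexCpx n) (simplexCpxMap φ)
      (toTable hx)).aug
  bdry := by
    rw [push_eq_map φ hx]
    exact (Table.map (K := simplexCpx m) (L := simplexCpx n) (simplexCpxMap φ)
      (toTable hx)).bd
  top τ hτ := by
    unfold push
    refine Finset.sum_congr rfl fun σ _ => ?_
    split_ifs with h
    · refine hx.top σ ?_
      unfold Face.dim at hτ ⊢
      omega
    · rfl
  above δ τ hτ := by
    unfold push
    refine Finset.sum_eq_zero fun σ _ => ?_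
    split_ifs with h
    · refine hx.above δ σ ?_
      unfold Face.dim at hτ ⊢
      omega
    · rfl

theorem cut_self {x : Bool → Face m → ℕ} (hx : IsCell m k x) (ε : Bool) : cut k ε x = x := by
  funext δ σ
  unfold cut
  rcases lt_trichotomy σ.dim k with h | h | h
  · rw [if_pos h]
  · rw [if_neg (by omega), if_pos h]
    cases ε <;> cases δ <;> first | rfl | exact hx.top σ h | exact (hx.top σ h).symm
  · rw [if_neg (by omega), if_neg (by omega), hx.above δ σ h]

theorem cut_cut (h : i < j) (ε η : Bool) (x : Bool → Face m → ℕ) :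
    cut i ε (cut j η x) = cut i ε x := by
  funext δ σ
  unfold cut
  split_ifs <;> first | rfl | omega

theorem cut_cut_self (j : ℕ) (ε η : Bool) (x : Bool → Face m → ℕ) :
    cut j ε (cut j η x) = cut j η x := by
  funext δ σ
  unfold cut
  split_ifs <;> rfl

theorem cut_glue_false (j : ℕ) (x y : Bool → Face m → ℕ) :
    cut j false (glue j x y) = cut j false x := by
  funext δ σ
  unfold cut glue
  split_ifs <;> first | rfl | omega | simp_all

theorem cut_glue_true {x y : Bool → Face m → ℕ} (p : cut j true x = cut j false y) :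
    cut j true (glue j x y) = cut j true y := by
  funext δ σ
  have h1 := congrFun (congrFun p δ) σ
  simp only [cut, glue] at h1 ⊢
  rcases lt_trichotomy σ.dim j with h | h | h
  · simp only [if_pos h] at h1 ⊢
    exact h1
  · have h2 : ¬ σ.dim < j := by omega
    simp only [if_neg h2, if_pos h, if_true]
  · have h2 : ¬ σ.dim < j := by omega
    have h3 : ¬ σ.dim = j := by omega
    simp only [if_neg h2, if_neg h3]

theorem cut_glue_high (h : i < j) (ε : Bool) (x y : Bool → Face m → ℕ) :
    cut j ε (glue i x y) = glue i (cut j ε x) (cut j ε y) := by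
  funext δ σ
  simp only [cut, glue]
  split_ifs <;> first | rfl | omega

theorem glue_id (j : ℕ) (x : Bool → Face m → ℕ) : glue j x (cut j true x) = x := by
  funext δ σ
  unfold cut glue
  split_ifs <;> first | rfl | omega | (cases δ <;> simp_all)

theorem id_glue (j : ℕ) (x : Bool → Face m → ℕ) : glue j (cut j false x) x = x := by
  funext δ σ
  unfold cut glue
  split_ifs <;> first | rfl | omega | (cases δ <;> simp_all)

theorem glue_assoc (j : ℕ) (x y z : Bool → Face m → ℕ) :
    glue j (glue j x y) z = glue j x (glue j y z) := by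
  funext δ σ
  unfold glue
  split_ifs <;> first | rfl | omega | simp_all

theorem glue_interchange (h : i < j) (x y x' y' : Bool → Face m → ℕ) :
    glue i (glue j x y) (glue j x' y') = glue j (glue i x x') (glue i y y') := by
  funext δ σ
  unfold glue
  split_ifs <;> first | rfl | omega | simp_all

theorem push_cut (φ : Fin (m + 1) →o Fin (n + 1)) (j : ℕ) (ε : Bool) (x : Bool → Face m → ℕ) :
    push φ (cut j ε x) = cut j ε (push φ x) := by
  funext δ τ
  have key : ∀ σ : Face m, (if σ.1.image φ = τ.1 ∧ τ.1.card = σ.1.card then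
      cut j ε x δ σ else 0) = (if σ.1.image φ = τ.1 ∧ τ.1.card = σ.1.card then
      (if τ.dim < j then x δ σ else if τ.dim = j then x ε σ else 0) else 0) := by
    intro σ
    by_cases h : σ.1.image φ = τ.1 ∧ τ.1.card = σ.1.card
    · have e : σ.dim = τ.dim := by
        unfold Face.dim
        omega
      rw [if_pos h, if_pos h]
      unfold cut
      rw [e]
    · rw [if_neg h, if_neg h]
  change (∑ σ : Face m, if σ.1.image φ = τ.1 ∧ τ.1.card = σ.1.card then cut j ε x δ σ else 0) =
    if τ.dim < j then (∑ σ : Face m, if σ.1.image φ = τ.1 ∧ τ.1.card = σ.1.card then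
      x δ σ else 0) else if τ.dim = j then (∑ σ : Face m,
        if σ.1.image φ = τ.1 ∧ τ.1.card = σ.1.card then x ε σ else 0) else 0
  rw [Finset.sum_congr rfl fun σ _ => key σ]
  split_ifs
  · rfl
  · rfl
  · simp

theorem push_glue (φ : Fin (m + 1) →o Fin (n + 1)) (j : ℕ) (x y : Bool → Face m → ℕ) :
    push φ (glue j x y) = glue j (push φ x) (push φ y) := by
  funext δ τ
  have key : ∀ σ : Face m, (if σ.1.image φ = τ.1 ∧ τ.1.card = σ.1.card then
      glue j x y δ σ else 0) = (if σ.1.image φ = τ.1 ∧ τ.1.card = σ.1.card then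
      (if τ.dim < j then x δ σ
        else if τ.dim = j then (if δ then y true σ else x false σ)
        else x δ σ + y δ σ) else 0) := by
    intro σ
    by_cases h : σ.1.image φ = τ.1 ∧ τ.1.card = σ.1.card
    · have e : σ.dim = τ.dim := by
        unfold Face.dim
        omega
      rw [if_pos h, if_pos h]
      unfold glue
      rw [e]
    · rw [if_neg h, if_neg h]
  change (∑ σ : Face m, if σ.1.image φ = τ.1 ∧ τ.1.card = σ.1.card then glue j x y δ σ else 0) =
    if τ.dim < j then (∑ σ : Face m, if σ.1.image φ = τ.1 ∧ τ.1.card = σ.1.card then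
      x δ σ else 0)
    else if τ.dim = j then (if δ then (∑ σ : Face m,
        if σ.1.image φ = τ.1 ∧ τ.1.card = σ.1.card then y true σ else 0) else
        (∑ σ : Face m, if σ.1.image φ = τ.1 ∧ τ.1.card = σ.1.card then x false σ else 0))
    else (∑ σ : Face m, if σ.1.image φ = τ.1 ∧ τ.1.card = σ.1.card then x δ σ else 0) +
      (∑ σ : Face m, if σ.1.image φ = τ.1 ∧ τ.1.card = σ.1.card then y δ σ else 0)
  rw [Finset.sum_congr rfl fun σ _ => key σ]
  split_ifs
  · rfl
  · rfl
  · rfl
  · rw [← Finset.sum_add_distrib]
    refine Finset.sum_congr rfl fun σ _ => ?_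
    split_ifs
    · rfl
    · rfl

theorem push_id (x : Bool → Face m → ℕ) : push OrderHom.id x = x := by
  funext δ τ
  unfold push
  rw [Finset.sum_eq_single τ]
  · simp
  · intro σ _ hσ
    rw [if_neg]
    rintro ⟨h, -⟩
    apply hσ
    apply Subtype.ext
    rw [← h]
    simp
  · intro h
    exact absurd (Finset.mem_univ _) h

theorem push_push {l : ℕ} (φ : Fin (l + 1) →o Fin (m + 1)) (ψ : Fin (m + 1) →o Fin (n + 1))
    (x : Bool → Face l → ℕ) : push (ψ.comp φ) x = push ψ (push φ x) := by
  have key : ∀ {a b : ℕ} (χ : Fin (a + 1) →o Fin (b + 1)) (z : Bool → Face a → ℕ) (δ : Bool)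
      (τ : Face b), push χ z δ τ = ∑ σ : Face a, z δ σ * simplexMat χ σ τ := by
    intro a b χ z δ τ
    unfold push
    refine Finset.sum_congr rfl fun σ _ => ?_
    unfold simplexMat
    split_ifs
    · rw [mul_one]
    · rw [mul_zero]
  funext δ τ
  rw [key, key]
  simp only [key, simplexMat_comp, Finset.mul_sum, Finset.sum_mul]
  rw [Finset.sum_comm]
  simp only [mul_assoc]

end Vale.Agent.P213G
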