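import Vale.Agent.Lib.P213G.Glob
import Vale.Agent.Lib.P213G.OrAux

/-!
# P213, second form: orientals, the Street nerve and the classes of morphisms
-/

open CategoryTheory Limits MorphismProperty

namespace Vale.Agent.P213G

/-- The `k`-cells of the oriental `𝒪_m`. -/
abbrev OCell (m k : ℕ) : Type := {x : Bool → Face m → ℕ // IsCell m k x}

/-- The oriental `𝒪_m`: cells, sources, targets, identities and composites. -/
def orientalData (m : ℕ) : GData where
  C := OCell m
  s {j k} h x := ⟨cut j false x.1, isCell_cut h x.2 false⟩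
  t {j k} h x := ⟨cut j true x.1, isCell_cut h x.2 true⟩
  one {j k} h x := ⟨x.1, isCell_one h x.2⟩
  comp {j k} h x y p := ⟨glue j x.1 y.1, isCell_glue h x.2 y.2 (congrArg Subtype.val p)⟩

theorem orientalLaws (m : ℕ) : GLaws (orientalData m) where
  s_self x := Subtype.ext (cut_self x.2 _)
  t_self x := Subtype.ext (cut_self x.2 _)
  one_self _ := rfl
  s_s h h' x := Subtype.ext (by
    rcases h.lt_or_eq with h1 | rfl
    · exact cut_cut h1 _ _ _
    · exact cut_cut_self _ _ _ _)
  t_t h h' x := Subtype.ext (by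
    rcases h.lt_or_eq with h1 | rfl
    · exact cut_cut h1 _ _ _
    · exact cut_cut_self _ _ _ _)
  s_t h _ _ := Subtype.ext (cut_cut h _ _ _)
  t_s h _ _ := Subtype.ext (cut_cut h _ _ _)
  one_one _ _ _ := rfl
  s_one _ x := Subtype.ext (cut_self x.2 _)
  t_one _ x := Subtype.ext (cut_self x.2 _)
  s_comp _ _ _ _ := Subtype.ext (cut_glue_false _ _ _)
  t_comp _ _ _ p := Subtype.ext (cut_glue_true (congrArg Subtype.val p))
  s_comp_high h _ _ _ _ _ := Subtype.ext (cut_glue_high h _ _ _)
  t_comp_high h _ _ _ _ _ := Subtype.ext (cut_glue_high h _ _ _)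
  one_comp _ _ _ _ _ _ := rfl
  comp_id _ _ _ := Subtype.ext (glue_id _ _)
  id_comp _ _ _ := Subtype.ext (id_glue _ _)
  assoc _ _ _ _ _ _ _ _ := Subtype.ext (glue_assoc _ _ _ _)
  interchange h _ _ _ _ _ _ _ _ _ _ _ := Subtype.ext (glue_interchange h _ _ _ _)

/-- Street's oriental `𝒪_m`, a strict globular `ω`-category. -/
def oriental (m : ℕ) : GCat := ⟨orientalData m, orientalLaws m⟩

/-- The action of a monotone map on the cells of the orientals. -/
def pushCell {m n : ℕ} (φ : Fin (m + 1) →o Fin (n + 1)) (k : ℕ) (x : OCell m k) : OCell n k :=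
  ⟨push φ x.1, isCell_push φ x.2⟩

theorem isFunctor_push {m n : ℕ} (φ : Fin (m + 1) →o Fin (n + 1)) :
    IsFunctor (orientalData m) (orientalData n) (pushCell φ) :=
  ⟨fun _ _ => Subtype.ext (push_cut φ _ _ _),
    fun _ _ => Subtype.ext (push_cut φ _ _ _),
    fun _ _ => rfl,
    fun _ _ _ _ _ => Subtype.ext (push_glue φ _ _ _)⟩

/-- The functor `𝒪_m ⟶ 𝒪_n` induced by a monotone map. -/
def orientalMap {m n : ℕ} (φ : Fin (m + 1) →o Fin (n + 1)) : oriental m ⟶ oriental n :=
  ⟨pushCell φ, isFunctor_push φ⟩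

theorem orientalMap_id (m : SimplexCategory) :
    orientalMap (SimplexCategory.Hom.toOrderHom (𝟙 m)) = 𝟙 (oriental m.len) :=
  GCat.hom_ext fun _ x => Subtype.ext (push_id x.1)

theorem orientalMap_comp {l m n : SimplexCategory} (φ : l ⟶ m) (ψ : m ⟶ n) :
    orientalMap (φ ≫ ψ).toOrderHom =
      orientalMap φ.toOrderHom ≫ orientalMap ψ.toOrderHom :=
  GCat.hom_ext fun _ x => Subtype.ext (push_push φ.toOrderHom ψ.toOrderHom x.1)

/-- The cosimplicial object `m ↦ 𝒪_m`. -/
def orientals : SimplexCategory ⥤ GCat where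
  obj m := oriental m.len
  map φ := orientalMap φ.toOrderHom
  map_id := orientalMap_id
  map_comp := orientalMap_comp

/-- The Street nerve of strict `ω`-categories: `(N X)_m = Hom(𝒪_m, X)`. -/
def nerveOmega : GCat ⥤ SSet.{0} := yoneda ⋙ (Functor.whiskeringLeft _ _ _).obj orientals.op

/-- The Street nerve `N_n` of strict `n`-categories. -/
def nerve (n : ℕ∞) : NCat n ⥤ SSet.{0} := (GCat.IsNCat n).ι ⋙ nerveOmega

/-- Kan fibrations: right lifting property against all horn inclusions. -/
def KanFibration : MorphismProperty SSet.{0} := SSet.modelCategoryQuillen.J.rlp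

/-- Anodyne extensions: left lifting property against all Kan fibrations. -/
def Anodyne : MorphismProperty SSet.{0} := KanFibration.llp

/-- Trivial Kan fibrations: right lifting property against all boundary inclusions
`∂Δ[m] ⟶ Δ[m]`. -/
def TrivialKanFibration : MorphismProperty SSet.{0} := SSet.modelCategoryQuillen.I.rlp

/-- Weak homotopy equivalences of simplicial sets: the composites of an anodyne extension
followed by a trivial Kan fibration. -/
def WeakHomotopyEquivalence : MorphismProperty SSet.{0} := fun X Y f =>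
  ∃ (Z : SSet.{0}) (i : X ⟶ Z) (p : Z ⟶ Y), i ≫ p = f ∧ Anodyne i ∧ TrivialKanFibration p

/-- `W_n`: the maps `f` such that `N_n f` is a weak homotopy equivalence. -/
def classW (n : ℕ∞) : MorphismProperty (NCat n) := fun _ _ f =>
  WeakHomotopyEquivalence ((nerve n).map f)

/-- `F_n`: the maps `f` such that `Ex² N_n f` is a Kan fibration. -/
def classF (n : ℕ∞) : MorphismProperty (NCat n) := fun _ _ f =>
  KanFibration (SSet.ex.map (SSet.ex.map ((nerve n).map f)))

/-- `C_n`: the maps with the left lifting property against `F_n ∩ W_n`. -/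
def classC (n : ℕ∞) : MorphismProperty (NCat n) := (classF n ⊓ classW n).llp

/-- `(C, W, F)` (cofibrations, weak equivalences, fibrations) is a model structure. -/
structure IsModelStructure {M : Type*} [Category M] (C W F : MorphismProperty M) : Prop where
  limits : HasLimitsOfSize.{0, 0} M
  colimits : HasColimitsOfSize.{0, 0} M
  two_out_of_three : W.HasTwoOutOfThreeProperty
  retracts : W.IsStableUnderRetracts
  cof_trivialFib : IsWeakFactorizationSystem C (F ⊓ W)
  trivialCof_fib : IsWeakFactorizationSystem (C ⊓ W) F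

/-- The adjunction `L ⊣ R` is a Quillen equivalence for the model structures `(C, W, F)` and
`(C', W', F')`: `R` preserves fibrations and trivial fibrations, and for `X` cofibrant and `Y`
fibrant a map `L X ⟶ Y` is in `W'` if and only if its adjunct `X ⟶ R Y` is in `W`. -/
structure IsQuillenEquivalence {𝒞 𝒟 : Type*} [Category 𝒞] [Category 𝒟]
    (C W F : MorphismProperty 𝒞) (C' W' F' : MorphismProperty 𝒟) {L : 𝒞 ⥤ 𝒟} {R : 𝒟 ⥤ 𝒞}
    (adj : L ⊣ R) : Prop where
  map_fibration : ∀ {X Y : 𝒟} (p : X ⟶ Y), F' p → F (R.map p)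
  map_trivialFibration : ∀ {X Y : 𝒟} (p : X ⟶ Y), F' p → W' p → F (R.map p) ∧ W (R.map p)
  weakEquivalence_iff : ∀ (X : 𝒞) (Y : 𝒟), (∀ {A : 𝒞} (hA : IsInitial A), C (hA.to X)) →
    (∀ {B : 𝒟} (hB : IsTerminal B), F' (hB.from Y)) →
    ∀ f : L.obj X ⟶ Y, W' f ↔ W (adj.homEquiv X Y f)

end Vale.Agent.P213G
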