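import Mathlib

/-!
# P213, third form: an adjunction whose adjuncts detect weak equivalences induces equivalences of
homotopy categories
-/

open CategoryTheory Functor

namespace Vale.Agent.P213G.Derived

variable {C D : Type*} [Category C] [Category D] {WC : MorphismProperty C}
  {WD : MorphismProperty D} {F : C ⥤ D} {G : D ⥤ C}

/-- both localized functors are equivalences -/
theorem isEquivalence_left (adj : F ⊣ G) (hη : ∀ X, WC (adj.unit.app X))
    (hε : ∀ Y, WD (adj.counit.app Y)) (F' : WC.Localization ⥤ WD.Localization)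
    (e₁ : WC.Q ⋙ F' ≅ F ⋙ WD.Q) (G' : WD.Localization ⥤ WC.Localization)
    (e₂ : WD.Q ⋙ G' ≅ G ⋙ WC.Q) : F'.IsEquivalence ∧ G'.IsEquivalence := by
  let l1 : Localization.Lifting WC.Q WC (F ⋙ WD.Q) F' := ⟨e₁⟩
  let l2 : Localization.Lifting WD.Q WD (G ⋙ WC.Q) G' := ⟨e₂⟩
  have i1 : IsIso (whiskerRight adj.unit WC.Q) := by
    have : ∀ X, IsIso ((whiskerRight adj.unit WC.Q).app X) := fun X =>
      Localization.inverts WC.Q WC _ (hη X)
    exact NatIso.isIso_of_isIso_app _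
  have i2 : IsIso (whiskerRight adj.counit WD.Q) := by
    have : ∀ X, IsIso ((whiskerRight adj.counit WD.Q).app X) := fun X =>
      Localization.inverts WD.Q WD _ (hε X)
    exact NatIso.isIso_of_isIso_app _
  let α : (F ⋙ WD.Q) ⋙ G' ≅ WC.Q :=
    Functor.associator _ _ _ ≪≫ isoWhiskerLeft F e₂ ≪≫ (Functor.associator _ _ _).symm ≪≫
      (asIso (whiskerRight adj.unit WC.Q)).symm ≪≫ Functor.leftUnitor _
  let β : (G ⋙ WC.Q) ⋙ F' ≅ WD.Q :=
    Functor.associator _ _ _ ≪≫ isoWhiskerLeft G e₁ ≪≫ (Functor.associator _ _ _).symm ≪≫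
      asIso (whiskerRight adj.counit WD.Q) ≪≫ Functor.leftUnitor _
  exact ⟨Localization.isEquivalence WC.Q WC WD.Q WD (F ⋙ WD.Q) F' (G ⋙ WC.Q) G' α β,
    Localization.isEquivalence WD.Q WD WC.Q WC (G ⋙ WC.Q) G' (F ⋙ WD.Q) F' β α⟩

theorem derived (adj : F ⊣ G) (hη : ∀ X, WC (adj.unit.app X))
    (hε : ∀ Y, WD (adj.counit.app Y)) (hF : WC ≤ WD.inverseImage F)
    (hG : WD ≤ WC.inverseImage G) :
    (∃ _ : (F ⋙ WD.Q).HasLeftDerivedFunctor WC,
      ((F ⋙ WD.Q).totalLeftDerived WC.Q WC).IsEquivalence) ∧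
    (∃ _ : (G ⋙ WC.Q).HasRightDerivedFunctor WD,
      ((G ⋙ WC.Q).totalRightDerived WD.Q WD).IsEquivalence) := by
  have iF : WC.IsInvertedBy (F ⋙ WD.Q) := fun X Y f hf =>
    Localization.inverts WD.Q WD _ (hF _ hf)
  have iG : WD.IsInvertedBy (G ⋙ WC.Q) := fun X Y f hf =>
    Localization.inverts WC.Q WC _ (hG _ hf)
  have h1 : (F ⋙ WD.Q).HasPointwiseLeftDerivedFunctor WC :=
    (F ⋙ WD.Q).hasPointwiseLeftDerivedFunctor_of_inverts iF
  have h2 : (G ⋙ WC.Q).HasPointwiseRightDerivedFunctor WD :=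
    (G ⋙ WC.Q).hasPointwiseRightDerivedFunctor_of_inverts iG
  have j1 : IsIso ((F ⋙ WD.Q).totalLeftDerivedCounit WC.Q WC) :=
    isIso_of_isLeftDerivedFunctor_of_inverts _ _ iF
  have j2 : IsIso ((G ⋙ WC.Q).totalRightDerivedUnit WD.Q WD) :=
    isIso_of_isRightDerivedFunctor_of_inverts _ _ iG
  have h := isEquivalence_left adj hη hε _ (asIso ((F ⋙ WD.Q).totalLeftDerivedCounit WC.Q WC)) _
    (asIso ((G ⋙ WC.Q).totalRightDerivedUnit WD.Q WD)).symm
  exact ⟨⟨inferInstance, h.1⟩, ⟨inferInstance, h.2⟩⟩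

end Vale.Agent.P213G.Derived
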