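import Vale.Agent.Lib.P213G.Glob
import Vale.Agent.Lib.P213.Defs

/-!
# P213, second form: from one-sorted to many-sorted omega-categories
-/

open CategoryTheory

namespace Vale.Agent.P213G

open Vale.Agent.P213 (OmegaCat)

theorem one_high {X : OmegaCat} {k l : ℕ} (h : k ≤ l) (ε : Bool) {x : X.Cell}
    (hx : X.bd k false x = x) : X.bd l ε x = x := by
  have h1 := X.bd_bd_ge ε false x h
  rwa [hx] at h1

/-- the many-sorted form of a one-sorted category -/
def globData (X : OmegaCat) : GData where
  C k := {x : X.Cell // X.bd k false x = x}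
  s {j k} _ x := ⟨X.bd j false x.1, X.bd_bd_ge _ _ _ le_rfl⟩
  t {j k} _ x := ⟨X.bd j true x.1, X.bd_bd_ge _ _ _ le_rfl⟩
  one {j k} h x := ⟨x.1, one_high h _ x.2⟩
  comp {j k} h x y p := ⟨X.comp j x.1 y.1, by
    rw [X.bd_comp _ h (congrArg Subtype.val p), x.2, y.2]⟩

theorem globLaws (X : OmegaCat) : GLaws (globData X) where
  s_self x := Subtype.ext x.2
  t_self x := Subtype.ext (one_high le_rfl _ x.2)
  one_self x := rfl
  s_s {i j k} h h' x := Subtype.ext (by
    rcases h.lt_or_eq with h1 | rfl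
    · exact X.bd_bd_lt _ _ _ h1
    · exact X.bd_bd_ge _ _ _ le_rfl)
  t_t {i j k} h h' x := Subtype.ext (by
    rcases h.lt_or_eq with h1 | rfl
    · exact X.bd_bd_lt _ _ _ h1
    · exact X.bd_bd_ge _ _ _ le_rfl)
  s_t {i j k} h h' x := Subtype.ext (X.bd_bd_lt _ _ _ h)
  t_s {i j k} h h' x := Subtype.ext (X.bd_bd_lt _ _ _ h)
  one_one _ _ _ := rfl
  s_one _ x := Subtype.ext x.2
  t_one _ x := Subtype.ext (one_high le_rfl _ x.2)
  s_comp _ _ _ p := Subtype.ext (X.bd_source_comp (congrArg Subtype.val p))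
  t_comp _ _ _ p := Subtype.ext (X.bd_target_comp (congrArg Subtype.val p))
  s_comp_high h _ _ _ p _ := Subtype.ext (X.bd_comp _ h (congrArg Subtype.val p))
  t_comp_high h _ _ _ p _ := Subtype.ext (X.bd_comp _ h (congrArg Subtype.val p))
  one_comp _ _ _ _ _ _ := rfl
  comp_id _ x _ := Subtype.ext (X.comp_target _ x.1)
  id_comp _ x _ := Subtype.ext (X.source_comp _ x.1)
  assoc _ _ _ _ p q _ _ := Subtype.ext
    (X.comp_assoc (congrArg Subtype.val p) (congrArg Subtype.val q))
  interchange h _ _ _ _ _ p p' q q' _ _ := Subtype.ext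
    (X.interchange h (congrArg Subtype.val p) (congrArg Subtype.val p')
      (congrArg Subtype.val q) (congrArg Subtype.val q'))

/-- the many-sorted form of a one-sorted category -/
def globObj (X : OmegaCat) : GCat := ⟨globData X, globLaws X⟩

/-- the functor to many-sorted omega-categories -/
def glob : OmegaCat ⥤ GCat where
  obj := globObj
  map {X Y} F := ⟨fun k x => ⟨F.toFun x.1, by rw [← F.map_bd, x.2]⟩,
    fun _ x => Subtype.ext (F.map_bd _ _ x.1),
    fun _ x => Subtype.ext (F.map_bd _ _ x.1),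
    fun _ _ => rfl,
    fun _ x y p _ => Subtype.ext (F.map_comp _ x.1 y.1 (congrArg Subtype.val p))⟩
  map_id _ := rfl
  map_comp _ _ := rfl

theorem glob_map_f {X Y : OmegaCat} (F : X ⟶ Y) (k : ℕ) (x : (globObj X).C k) :
    ((glob.map F).f k x).1 = F.toFun x.1 := rfl

instance : glob.Faithful where
  map_injective {X Y F G} h := by
    apply OmegaCat.hom_ext
    intro x
    obtain ⟨n, hn⟩ := X.finite_dim x
    have h1 := congrArg (fun a : glob.obj X ⟶ glob.obj Y => (a.f n ⟨x, hn⟩).1) h
    exact h1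

section Full

variable {X Y : OmegaCat} (a : glob.obj X ⟶ glob.obj Y)

/-- the underlying function of a functor between many-sorted forms -/
noncomputable def fullFun (x : X.Cell) : Y.Cell :=
  (a.f (X.finite_dim x).choose ⟨x, (X.finite_dim x).choose_spec⟩).1

theorem full_aux {j k : ℕ} (h : j ≤ k) {x : X.Cell} (hj : X.bd j false x = x)
    (hk : X.bd k false x = x) : (a.f k ⟨x, hk⟩).1 = (a.f j ⟨x, hj⟩).1 := by
  have h1 := a.isFunctor.map_one h ⟨x, hj⟩
  exact congrArg Subtype.val h1

theorem fullFun_eq {k : ℕ} {x : X.Cell} (hk : X.bd k false x = x) :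
    fullFun a x = (a.f k ⟨x, hk⟩).1 := by
  unfold fullFun
  rcases le_total k (X.finite_dim x).choose with h | h
  · exact full_aux a h hk _
  · exact (full_aux a h (X.finite_dim x).choose_spec hk).symm

end Full

instance : glob.Full where
  map_surjective {X Y} a := by
    refine ⟨⟨fullFun a, ?_, ?_⟩, ?_⟩
    · intro k ε x
      obtain ⟨n, hn⟩ := X.finite_dim x
      have hN : X.bd (max n k) false x = x := one_high (le_max_left _ _) _ hn
      have hk : X.bd k false (X.bd k ε x) = X.bd k ε x := X.bd_bd_ge _ _ _ le_rfl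
      rw [fullFun_eq a hN, fullFun_eq a hk]
      cases ε
      · exact congrArg Subtype.val (a.isFunctor.map_s (le_max_right n k) ⟨x, hN⟩)
      · exact congrArg Subtype.val (a.isFunctor.map_t (le_max_right n k) ⟨x, hN⟩)
    · intro k x y p
      obtain ⟨n, hn⟩ := X.finite_dim x
      obtain ⟨m, hm⟩ := X.finite_dim y
      have hk : k < max (max n m) (k + 1) := lt_of_lt_of_le (Nat.lt_succ_self k) (le_max_right _ _)
      have hx : X.bd (max (max n m) (k + 1)) false x = x :=
        one_high ((le_max_left _ _).trans (le_max_left _ _)) _ hn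
      have hy : X.bd (max (max n m) (k + 1)) false y = y :=
        one_high ((le_max_right _ _).trans (le_max_left _ _)) _ hm
      have hc : X.bd (max (max n m) (k + 1)) false (X.comp k x y) = X.comp k x y := by
        rw [X.bd_comp _ hk p, hx, hy]
      rw [fullFun_eq a hx, fullFun_eq a hy, fullFun_eq a hc]
      have p' : (globObj X).t hk.le ⟨x, hx⟩ = (globObj X).s hk.le ⟨y, hy⟩ := Subtype.ext p
      have q' : (globObj Y).t hk.le (a.f _ ⟨x, hx⟩) = (globObj Y).s hk.le (a.f _ ⟨y, hy⟩) := by
        have h1 := a.isFunctor.map_t hk.le ⟨x, hx⟩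
        have h2 := a.isFunctor.map_s hk.le ⟨y, hy⟩
        exact h1.symm.trans ((congrArg (a.f k) p').trans h2)
      exact congrArg Subtype.val (a.isFunctor.map_comp hk ⟨x, hx⟩ ⟨y, hy⟩ p' q')
    · apply GCat.hom_ext
      intro k x
      apply Subtype.ext
      exact fullFun_eq a x.2

end Vale.Agent.P213G
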