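import Mathlib

/-!
# P213, second form: strict globular omega-categories (many-sorted)
-/

open CategoryTheory

namespace Vale.Agent.P213G

/-- The data of a strict globular `ω`-category: a set `C k` of `k`-cells for all `k`; for `j ≤ k` the
iterated source `s`, target `t : C k → C j` and identity `one : C j → C k`; for `j < k` the
composite `x *_j y` (first `x`, then `y`) of two `k`-cells with `t_j x = s_j y`. -/
structure GData where
  C : ℕ → Type
  s : ∀ {j k : ℕ}, j ≤ k → C k → C j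
  t : ∀ {j k : ℕ}, j ≤ k → C k → C j
  one : ∀ {j k : ℕ}, j ≤ k → C j → C k
  comp : ∀ {j k : ℕ} (h : j < k) (x y : C k), t h.le x = s h.le y → C k

/-- The axioms of a strict globular `ω`-category. -/
structure GLaws (X : GData) : Prop where
  s_self : ∀ {k : ℕ} (x : X.C k), X.s le_rfl x = x
  t_self : ∀ {k : ℕ} (x : X.C k), X.t le_rfl x = x
  one_self : ∀ {k : ℕ} (x : X.C k), X.one le_rfl x = x
  s_s : ∀ {i j k : ℕ} (h : i ≤ j) (h' : j ≤ k) (x : X.C k),
    X.s h (X.s h' x) = X.s (h.trans h') x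
  t_t : ∀ {i j k : ℕ} (h : i ≤ j) (h' : j ≤ k) (x : X.C k),
    X.t h (X.t h' x) = X.t (h.trans h') x
  s_t : ∀ {i j k : ℕ} (h : i < j) (h' : j ≤ k) (x : X.C k),
    X.s h.le (X.t h' x) = X.s (h.le.trans h') x
  t_s : ∀ {i j k : ℕ} (h : i < j) (h' : j ≤ k) (x : X.C k),
    X.t h.le (X.s h' x) = X.t (h.le.trans h') x
  one_one : ∀ {i j k : ℕ} (h : i ≤ j) (h' : j ≤ k) (x : X.C i),
    X.one h' (X.one h x) = X.one (h.trans h') x
  s_one : ∀ {j k : ℕ} (h : j ≤ k) (x : X.C j), X.s h (X.one h x) = x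
  t_one : ∀ {j k : ℕ} (h : j ≤ k) (x : X.C j), X.t h (X.one h x) = x
  s_comp : ∀ {j k : ℕ} (h : j < k) (x y : X.C k) (p : X.t h.le x = X.s h.le y),
    X.s h.le (X.comp h x y p) = X.s h.le x
  t_comp : ∀ {j k : ℕ} (h : j < k) (x y : X.C k) (p : X.t h.le x = X.s h.le y),
    X.t h.le (X.comp h x y p) = X.t h.le y
  s_comp_high : ∀ {i j k : ℕ} (h : i < j) (h' : j ≤ k) (x y : X.C k)
    (p : X.t (h.le.trans h') x = X.s (h.le.trans h') y)
    (q : X.t h.le (X.s h' x) = X.s h.le (X.s h' y)),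
    X.s h' (X.comp (h.trans_le h') x y p) = X.comp h (X.s h' x) (X.s h' y) q
  t_comp_high : ∀ {i j k : ℕ} (h : i < j) (h' : j ≤ k) (x y : X.C k)
    (p : X.t (h.le.trans h') x = X.s (h.le.trans h') y)
    (q : X.t h.le (X.t h' x) = X.s h.le (X.t h' y)),
    X.t h' (X.comp (h.trans_le h') x y p) = X.comp h (X.t h' x) (X.t h' y) q
  one_comp : ∀ {i j k : ℕ} (h : i < j) (h' : j ≤ k) (x y : X.C j) (p : X.t h.le x = X.s h.le y)
    (q : X.t (h.le.trans h') (X.one h' x) = X.s (h.le.trans h') (X.one h' y)),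
    X.one h' (X.comp h x y p) = X.comp (h.trans_le h') (X.one h' x) (X.one h' y) q
  comp_id : ∀ {j k : ℕ} (h : j < k) (x : X.C k)
    (p : X.t h.le x = X.s h.le (X.one h.le (X.t h.le x))),
    X.comp h x (X.one h.le (X.t h.le x)) p = x
  id_comp : ∀ {j k : ℕ} (h : j < k) (x : X.C k)
    (p : X.t h.le (X.one h.le (X.s h.le x)) = X.s h.le x),
    X.comp h (X.one h.le (X.s h.le x)) x p = x
  assoc : ∀ {j k : ℕ} (h : j < k) (x y z : X.C k) (p : X.t h.le x = X.s h.le y)
    (q : X.t h.le y = X.s h.le z) (p' : X.t h.le (X.comp h x y p) = X.s h.le z)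
    (q' : X.t h.le x = X.s h.le (X.comp h y z q)),
    X.comp h (X.comp h x y p) z p' = X.comp h x (X.comp h y z q) q'
  interchange : ∀ {i j k : ℕ} (h : i < j) (h' : j < k) (x y x' y' : X.C k)
    (p : X.t h'.le x = X.s h'.le y) (p' : X.t h'.le x' = X.s h'.le y')
    (q : X.t (h.trans h').le x = X.s (h.trans h').le x')
    (q' : X.t (h.trans h').le y = X.s (h.trans h').le y')
    (r : X.t (h.trans h').le (X.comp h' x y p) = X.s (h.trans h').le (X.comp h' x' y' p'))
    (r' : X.t h'.le (X.comp (h.trans h') x x' q) = X.s h'.le (X.comp (h.trans h') y y' q')),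
    X.comp (h.trans h') (X.comp h' x y p) (X.comp h' x' y' p') r =
      X.comp h' (X.comp (h.trans h') x x' q) (X.comp (h.trans h') y y' q') r'

/-- Small strict globular `ω`-categories. -/
structure GCat extends GData where
  laws : GLaws toGData

/-- Compatibility with sources, targets, identities and compositions. -/
structure IsFunctor (X Y : GData) (f : ∀ k : ℕ, X.C k → Y.C k) : Prop where
  map_s : ∀ {j k : ℕ} (h : j ≤ k) (x : X.C k), f j (X.s h x) = Y.s h (f k x)
  map_t : ∀ {j k : ℕ} (h : j ≤ k) (x : X.C k), f j (X.t h x) = Y.t h (f k x)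
  map_one : ∀ {j k : ℕ} (h : j ≤ k) (x : X.C j), f k (X.one h x) = Y.one h (f j x)
  map_comp : ∀ {j k : ℕ} (h : j < k) (x y : X.C k) (p : X.t h.le x = X.s h.le y)
    (q : Y.t h.le (f k x) = Y.s h.le (f k y)),
    f k (X.comp h x y p) = Y.comp h (f k x) (f k y) q

namespace GCat

/-- Strict `ω`-functors. -/
structure Hom (X Y : GCat) where
  f : ∀ k : ℕ, X.C k → Y.C k
  isFunctor : IsFunctor X.toGData Y.toGData f

theorem Hom.ext' {X Y : GCat} {a b : Hom X Y} (h : ∀ k x, a.f k x = b.f k x) : a = b := by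
  obtain ⟨a, ha⟩ := a
  obtain ⟨b, hb⟩ := b
  have h1 : a = b := funext fun k => funext (h k)
  subst h1
  rfl

theorem isFunctor_id (X : GData) : IsFunctor X X (fun _ x => x) :=
  ⟨fun _ _ => rfl, fun _ _ => rfl, fun _ _ => rfl, fun _ _ _ _ _ => rfl⟩

theorem isFunctor_comp {X Y Z : GCat} (a : Hom X Y) (b : Hom Y Z) :
    IsFunctor X.toGData Z.toGData (fun k x => b.f k (a.f k x)) where
  map_s h x := by rw [a.isFunctor.map_s, b.isFunctor.map_s]
  map_t h x := by rw [a.isFunctor.map_t, b.isFunctor.map_t]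
  map_one h x := by rw [a.isFunctor.map_one, b.isFunctor.map_one]
  map_comp h x y p q := by
    have r : Y.t h.le (a.f _ x) = Y.s h.le (a.f _ y) := by
      rw [← a.isFunctor.map_t, ← a.isFunctor.map_s, p]
    rw [a.isFunctor.map_comp h x y p r, b.isFunctor.map_comp h _ _ r q]

/-- The identity functor. -/
def idHom (X : GCat) : Hom X X := ⟨fun _ x => x, isFunctor_id X.toGData⟩

/-- The composite of two functors. -/
def compHom {X Y Z : GCat} (a : Hom X Y) (b : Hom Y Z) : Hom X Z :=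
  ⟨fun k x => b.f k (a.f k x), isFunctor_comp a b⟩

theorem idHom_comp {X Y : GCat} (a : Hom X Y) : compHom (idHom X) a = a := rfl

theorem compHom_id {X Y : GCat} (a : Hom X Y) : compHom a (idHom Y) = a := rfl

theorem compHom_assoc {X Y Z W : GCat} (a : Hom X Y) (b : Hom Y Z) (c : Hom Z W) :
    compHom (compHom a b) c = compHom a (compHom b c) := rfl

instance : Category GCat where
  Hom := Hom
  id := idHom
  comp := compHom
  id_comp := idHom_comp
  comp_id := compHom_id
  assoc := compHom_assoc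

@[ext]
lemma hom_ext {X Y : GCat} {a b : X ⟶ Y} (h : ∀ k x, a.f k x = b.f k x) : a = b :=
  Hom.ext' h

@[simp] lemma id_f (X : GCat) (k : ℕ) (x : X.C k) : Hom.f (𝟙 X) k x = x := rfl
@[simp] lemma comp_f {X Y Z : GCat} (a : X ⟶ Y) (b : Y ⟶ Z) (k : ℕ) (x : X.C k) :
    Hom.f (a ≫ b) k x = b.f k (a.f k x) := rfl

/-- `X` is an `n`-category: the cells above dimension `n` are identities (no condition
if `n = ⊤`). -/
def IsNCat (n : ℕ∞) : ObjectProperty GCat :=
  fun X => ∀ k : ℕ, n ≤ (k : ℕ∞) → ∀ x : X.C (k + 1), ∃ y : X.C k, X.one (Nat.le_succ k) y = x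

end GCat

/-- The category of small strict `n`-categories, as a full subcategory of the category of strict
`ω`-categories. -/
abbrev NCat (n : ℕ∞) : Type 1 := (GCat.IsNCat n).FullSubcategory

end Vale.Agent.P213G
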