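import Vale.Agent.Lib.P213G.Compare
import Vale.Agent.Lib.P213.Assemble
import Vale.Agent.Lib.P213.SdDwyer

/-!
# P213, second form: transport of the model structure
-/

open CategoryTheory Limits MorphismProperty HomotopicalAlgebra
open Vale.Agent.P213.SS SSet SSet.modelCategoryQuillen

namespace Vale.Agent.P213G

theorem whe_eq : WeakHomotopyEquivalence = weq.{0} := by
  ext X Y f
  constructor
  · rintro ⟨Z, i, p, rfl, hi, hp⟩
    refine weq.comp_mem _ _ (weq_of_anodyne i ?_) (weq_of_trivFib p hp)
    rw [anodyneExtensions_eq_llp_rlp]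
    exact hi
  · intro hf
    have hfac : HasFactorization J.{0}.rlp.llp J.{0}.rlp := inferInstance
    obtain ⟨d⟩ := hfac.nonempty_mapFactorizationData f
    have hi : weq d.i := weq_of_anodyne d.i (by
      rw [anodyneExtensions_eq_llp_rlp]
      exact d.hi)
    have hp : weq d.p := by
      refine weq.of_precomp d.i d.p hi ?_
      rw [d.fac]
      exact hf
    have hfib : Fibration d.p := (fibration_iff _).2 d.hp
    exact ⟨d.Z, d.i, d.p, d.fac, d.hi, trivFib_of_weq d.p hp⟩

theorem weq_eq : (weq.{0} : MorphismProperty SSet.{0}) = Vale.Agent.P213.WeakEq := rfl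

theorem prop_iso_iff {𝒞 𝒟 : Type*} [Category 𝒞] [Category 𝒟] (P : MorphismProperty 𝒟)
    [P.RespectsIso] {F G : 𝒞 ⥤ 𝒟} (α : F ≅ G) {X Y : 𝒞} (f : X ⟶ Y) :
    P (F.map f) ↔ P (G.map f) :=
  P.arrow_mk_iso_iff (Arrow.isoMk (α.app X) (α.app Y) (α.hom.naturality f).symm)

instance : WeakHomotopyEquivalence.RespectsIso := by
  rw [whe_eq]
  infer_instance

instance : KanFibration.RespectsIso := by
  unfold KanFibration
  infer_instance

theorem classW_eq (n : ℕ∞) : classW n = WeakHomotopyEquivalence.inverseImage (nerve n) := rfl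

theorem classF_eq (n : ℕ∞) :
    classF n = KanFibration.inverseImage (nerve n ⋙ SSet.ex ⋙ SSet.ex) := rfl

instance (n : ℕ∞) : (classW n).RespectsIso := by
  rw [classW_eq]
  infer_instance

instance (n : ℕ∞) : (classF n).RespectsIso := by
  rw [classF_eq]
  infer_instance

theorem classW_map (n : ℕ∞) {X Y : Vale.Agent.P213.NCat n} (f : X ⟶ Y) :
    classW n ((globN n).map f) ↔ Vale.Agent.P213.thomasonW n f := by
  have h := prop_iso_iff WeakHomotopyEquivalence (nerveIsoN n) f
  rw [whe_eq] at h
  unfold classW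
  rw [whe_eq]
  exact h.symm

theorem classF_map (n : ℕ∞) {X Y : Vale.Agent.P213.NCat n} (f : X ⟶ Y) :
    classF n ((globN n).map f) ↔ Vale.Agent.P213.thomasonF n f :=
  (prop_iso_iff KanFibration
    (Functor.isoWhiskerRight (nerveIsoN n) (SSet.ex ⋙ SSet.ex)) f).symm

/-- the equivalence -/
noncomputable def eqv (n : ℕ∞) : NCat n ≌ Vale.Agent.P213.NCat n := (globN n).asEquivalence.symm

theorem classW_iff (n : ℕ∞) {X Y : NCat n} (f : X ⟶ Y) :
    classW n f ↔ Vale.Agent.P213.thomasonW n ((eqv n).functor.map f) := by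
  rw [← classW_map]
  exact prop_iso_iff (classW n) (eqv n).unitIso f

theorem classF_iff (n : ℕ∞) {X Y : NCat n} (f : X ⟶ Y) :
    classF n f ↔ Vale.Agent.P213.thomasonF n ((eqv n).functor.map f) := by
  rw [← classF_map]
  exact prop_iso_iff (classF n) (eqv n).unitIso f

theorem classC_iff (n : ℕ∞) {X Y : NCat n} (f : X ⟶ Y) :
    classC n f ↔ Vale.Agent.P213.thomasonC n ((eqv n).functor.map f) := by
  constructor
  · intro h A B p hp
    rw [(eqv n).toAdjunction.hasLiftingProperty_iff]
    exact h _ ⟨(classF_map n p).2 hp.1, (classW_map n p).2 hp.2⟩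
  · intro h A B p hp
    rw [← (eqv n).functor.hasLiftingProperty_iff_of_isEquivalence]
    exact h _ ⟨(classF_iff n p).1 hp.1, (classW_iff n p).1 hp.2⟩

theorem isModelStructure_sset :
    IsModelStructure (monomorphisms SSet.{0}) WeakHomotopyEquivalence KanFibration where
  limits := inferInstance
  colimits := inferInstance
  two_out_of_three := by
    rw [whe_eq]
    infer_instance
  retracts := by
    rw [whe_eq]
    infer_instance
  cof_trivialFib := by
    rw [whe_eq]
    have h : KanFibration ⊓ weq.{0} = I.{0}.rlp := by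
      ext E S p
      rw [trivFib_iff]
      exact ⟨fun h => ⟨(fibration_iff _).2 h.1, h.2⟩, fun h => ⟨(fibration_iff _).1 h.1, h.2⟩⟩
    rw [h, ← llp_rlp_I]
    exact
      { rlp := rlp_llp_rlp _
        llp := rfl
        hasFactorization := inferInstance }
  trivialCof_fib := by
    rw [whe_eq]
    have h : monomorphisms SSet.{0} ⊓ weq.{0} = J.{0}.rlp.llp := by
      rw [← anodyneExtensions_eq_llp_rlp, ← tcof_eq_anodyne]
      rfl
    rw [h]
    exact
      { rlp := rlp_llp_rlp _
        llp := rfl
        hasFactorization := inferInstanceAs (HasFactorization J.{0}.rlp.llp J.{0}.rlp) }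

theorem isModelStructure_nCat (n : ℕ∞) (hn : 1 ≤ n) :
    IsModelStructure (classC n) (classW n) (classF n) := by
  obtain ⟨M, hW, hF, hC⟩ :=
    (Vale.Agent.P213.thomason_of_sdDwyer Vale.Agent.P213.sdsd_dwyer n hn).1
  let i1 : CategoryWithCofibrations (NCat n) := ⟨classC n⟩
  let i2 : CategoryWithFibrations (NCat n) := ⟨classF n⟩
  let i3 : CategoryWithWeakEquivalences (NCat n) := ⟨classW n⟩
  have h1 : cofibrations (NCat n) = (cofibrations (Vale.Agent.P213.NCat n)).inverseImage
      (eqv n).functor := by
    rw [hC]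
    ext X Y f
    exact classC_iff n f
  have h2 : fibrations (NCat n) = (fibrations (Vale.Agent.P213.NCat n)).inverseImage
      (eqv n).functor := by
    rw [hF]
    ext X Y f
    exact classF_iff n f
  have h3 : weakEquivalences (NCat n) =
      (weakEquivalences (Vale.Agent.P213.NCat n)).inverseImage (eqv n).functor := by
    rw [hW]
    ext X Y f
    exact classW_iff n f
  let _ := ModelCategory.transport (eqv n) h1 h2 h3
  refine ⟨Adjunction.has_limits_of_equivalence (eqv n).functor,
    Adjunction.has_colimits_of_equivalence (eqv n).functor, ?_, ?_, ?_, ?_⟩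
  · exact inferInstanceAs (weakEquivalences (NCat n)).HasTwoOutOfThreeProperty
  · exact inferInstanceAs (weakEquivalences (NCat n)).IsStableUnderRetracts
  · exact inferInstanceAs (IsWeakFactorizationSystem (cofibrations (NCat n))
      (trivialFibrations (NCat n)))
  · exact inferInstanceAs (IsWeakFactorizationSystem (trivialCofibrations (NCat n))
      (fibrations (NCat n)))

theorem nerve_isRightAdjoint (n : ℕ∞) : (nerve n).IsRightAdjoint := by
  have h1 : nerve n ≅ (eqv n).functor ⋙ Vale.Agent.P213.streetNerve n :=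
    ((Functor.leftUnitor _).symm ≪≫ Functor.isoWhiskerRight (eqv n).unitIso (nerve n) ≪≫
      Functor.associator _ _ _) ≪≫ Functor.isoWhiskerLeft _ (nerveIsoN n).symm
  exact Functor.isRightAdjoint_of_iso h1.symm

section Quillen

variable {n : ℕ∞} {c : SSet.{0} ⥤ NCat n} (adj : c ⊣ nerve n)

/-- the corresponding left adjoint of the landed form of the nerve -/
noncomputable def oldAdj : c ⋙ (eqv n).functor ⊣ Vale.Agent.P213.streetNerve n :=
  (adj.comp (eqv n).toAdjunction).ofNatIsoRight (nerveIsoN n).symm

/-- comparison of the right adjoints -/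
noncomputable def theta (Y : NCat n) :
    (nerve n).obj Y ≅ (Vale.Agent.P213.streetNerve n).obj ((eqv n).functor.obj Y) :=
  (nerve n).mapIso ((eqv n).unitIso.app Y) ≪≫ (nerveIsoN n).symm.app ((eqv n).functor.obj Y)

theorem oldAdj_homEquiv {Z : SSet.{0}} {Y : NCat n} (f : c.obj Z ⟶ Y) :
    (oldAdj adj).homEquiv Z ((eqv n).functor.obj Y) ((eqv n).functor.map f) =
      adj.homEquiv Z Y f ≫ (theta Y).hom := by
  have h0 : (eqv n).toAdjunction.homEquiv (c.obj Z) ((eqv n).functor.obj Y)
      ((eqv n).functor.map f) = f ≫ (eqv n).unitIso.hom.app Y := by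
    rw [Adjunction.homEquiv_unit]
    exact ((eqv n).unitIso.hom.naturality f).symm
  have h1 : (oldAdj adj).homEquiv Z ((eqv n).functor.obj Y) ((eqv n).functor.map f) =
      (adj.comp (eqv n).toAdjunction).homEquiv Z ((eqv n).functor.obj Y)
        ((eqv n).functor.map f) ≫ (nerveIsoN n).symm.hom.app ((eqv n).functor.obj Y) :=
    Adjunction.homEquiv_ofNatIsoRight_apply _ _ _
  have h2 : (adj.comp (eqv n).toAdjunction).homEquiv Z ((eqv n).functor.obj Y)
      ((eqv n).functor.map f) = adj.homEquiv Z _
        ((eqv n).toAdjunction.homEquiv (c.obj Z) ((eqv n).functor.obj Y)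
          ((eqv n).functor.map f)) := by
    rw [Adjunction.comp_homEquiv]
    rfl
  rw [h1, h2, h0, Adjunction.homEquiv_naturality_right]
  exact Category.assoc _ _ _

theorem quillen (hn : 1 ≤ n) :
    IsQuillenEquivalence (monomorphisms SSet.{0}) WeakHomotopyEquivalence KanFibration
      (classC n) (classW n) (classF n)
      ((SSet.sdExAdjunction.comp SSet.sdExAdjunction).comp adj) where
  map_fibration p hp := hp
  map_trivialFibration p hp hp' := by
    refine ⟨hp, ?_⟩
    rw [whe_eq]
    unfold classW at hp'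
    rw [whe_eq] at hp'
    change weq (SSet.ex.map (SSet.ex.map ((nerve n).map p)))
    rw [weq_ex_map_iff, weq_ex_map_iff]
    exact hp'
  weakEquivalence_iff X Y _ _ f := by
    obtain ⟨-, -, h3⟩ := (Vale.Agent.P213.thomason_of_sdDwyer Vale.Agent.P213.sdsd_dwyer n hn).2
      _ (oldAdj adj)
    have h4 := h3 X ((eqv n).functor.obj Y) ((eqv n).functor.map f)
    rw [classW_iff]
    refine h4.trans ?_
    have h5 : (SSet.sdExAdjunction.comp (SSet.sdExAdjunction.comp (oldAdj adj))).homEquiv X
        ((eqv n).functor.obj Y) ((eqv n).functor.map f) =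
        ((SSet.sdExAdjunction.comp SSet.sdExAdjunction).comp adj).homEquiv X Y f ≫
          SSet.ex.map (SSet.ex.map (theta Y).hom) := by
      have e1 : (SSet.sdExAdjunction.comp (SSet.sdExAdjunction.comp (oldAdj adj))).homEquiv X
          ((eqv n).functor.obj Y) ((eqv n).functor.map f) =
          SSet.sdExAdjunction.homEquiv _ _ (SSet.sdExAdjunction.homEquiv _ _
            ((oldAdj adj).homEquiv _ ((eqv n).functor.obj Y) ((eqv n).functor.map f))) := by
        rw [Adjunction.comp_homEquiv, Adjunction.comp_homEquiv]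
        rfl
      have e2 : ((SSet.sdExAdjunction.comp SSet.sdExAdjunction).comp adj).homEquiv X Y f =
          SSet.sdExAdjunction.homEquiv _ _ (SSet.sdExAdjunction.homEquiv _ _
            (adj.homEquiv _ Y f)) := by
        rw [Adjunction.comp_homEquiv, Adjunction.comp_homEquiv]
        rfl
      rw [e1, e2, oldAdj_homEquiv, Adjunction.homEquiv_naturality_right,
        Adjunction.homEquiv_naturality_right]
    rw [h5, whe_eq, ← weq_eq]
    exact cancel_right_of_respectsIso weq _ _

end Quillen

end Vale.Agent.P213G
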