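import Mathlib

/-!
# P213, second form: cells of the orientals
-/

namespace Vale.Agent.P213G

/-- The nonempty faces of the `m`-simplex with vertices `0, …, m`. -/
abbrev Face (m : ℕ) : Type := {σ : Finset (Fin (m + 1)) // σ.Nonempty}

/-- The dimension of a face. -/
def Face.dim {m : ℕ} (σ : Face m) : ℕ := σ.1.card - 1

/-- The coefficient of `τ` in the boundary of `σ`: it is `(-1)^i` if `τ` is obtained from `σ` by
omitting its `i`-th vertex (`i ≥ 0`), and `0` if `τ` is not a facet of `σ`. -/
def inc {m : ℕ} (σ τ : Face m) : ℤ :=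
  ∑ j ∈ σ.1, if σ.1.erase j = τ.1 then (-1) ^ (σ.1.filter (· < j)).card else 0

/-- A `k`-cell of the oriental `𝒪_m`: chains `x⁻_i = x false`, `x⁺_i = x true` (`i ≤ k`) with natural
number coefficients on the `i`-dimensional faces of the `m`-simplex, such that `x⁻_0`, `x⁺_0` have
augmentation `1`, `∂ x^ε_{i+1} = x⁺_i - x⁻_i` for both signs `ε` and all `i`, and `x⁻_k = x⁺_k`. -/
structure IsCell (m k : ℕ) (x : Bool → Face m → ℕ) : Prop where
  aug : ∀ ε : Bool, (∑ σ : Face m, if σ.dim = 0 then x ε σ else 0) = 1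
  bdry : ∀ (ε : Bool) (τ : Face m),
    ∑ σ : Face m, (x ε σ : ℤ) * inc σ τ = (x true τ : ℤ) - (x false τ : ℤ)
  top : ∀ σ : Face m, σ.dim = k → x false σ = x true σ
  above : ∀ (ε : Bool) (σ : Face m), k < σ.dim → x ε σ = 0

/-- The `j`-dimensional source (`ε = false`) or target (`ε = true`). -/
def cut {m : ℕ} (j : ℕ) (ε : Bool) (x : Bool → Face m → ℕ) : Bool → Face m → ℕ := fun δ σ =>
  if σ.dim < j then x δ σ else if σ.dim = j then x ε σ else 0

/-- The composite along `j`-cells: add the chains of degree above `j`. -/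
def glue {m : ℕ} (j : ℕ) (x y : Bool → Face m → ℕ) : Bool → Face m → ℕ := fun δ σ =>
  if σ.dim < j then x δ σ
  else if σ.dim = j then (if δ then y true σ else x false σ)
  else x δ σ + y δ σ

/-- The image of a cell under the map of normalized chains induced by a monotone map `φ`
(a face on which `φ` is not injective goes to `0`). -/
def push {m n : ℕ} (φ : Fin (m + 1) →o Fin (n + 1)) (x : Bool → Face m → ℕ) :
    Bool → Face n → ℕ := fun δ τ =>
  ∑ σ : Face m, if σ.1.image φ = τ.1 ∧ τ.1.card = σ.1.card then x δ σ else 0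

end Vale.Agent.P213G
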